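import Vale.Agent.H29.QACDefs.Defs
import Vale.Agent.H29.QAC.Final

namespace Vale.Agent.Results.P368.DepthThree

open Vale.Agent.H29.QACDefs

/-- Entangling depth three, no restriction on the number of qubits, ancillas or gates: the
parity correlation is at most `C exp (-c n^(1/3))`, hence no fixed worst-case advantage. -/
theorem result :
    (∀ (n N : ℕ), n ≤ N → ∀ (c : List (Layer N)), entDepth c ≤ 3 → ∀ o : Fin N,
      |parCorr n c o| ≤ 6168 * Real.exp (-((n : ℝ) ^ (1 / 3 : ℝ) / 640))) ∧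
    (∀ (n N : ℕ), n ≤ N → ∀ (c : List (Layer N)), entDepth c ≤ 3 → ∀ (o : Fin N) (ε : ℝ),
      ComputesParity n c o ε → ε ≤ 3084 * Real.exp (-((n : ℝ) ^ (1 / 3 : ℝ) / 640))) ∧
    (∀ ε : ℝ, 0 < ε → ∃ n₀ : ℕ, ∀ (n N : ℕ), n₀ ≤ n → n ≤ N → ∀ (c : List (Layer N)),
      entDepth c ≤ 3 → ∀ o : Fin N, ¬ ComputesParity n c o ε) := by
  have h1 : ∀ (n N : ℕ), n ≤ N → ∀ (c : List (Layer N)), entDepth c ≤ 3 → ∀ o : Fin N,
      |parCorr n c o| ≤ 6168 * Real.exp (-((n : ℝ) ^ (1 / 3 : ℝ) / 640)) :=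
    fun n N hn c hc o => Vale.Agent.H29.QAC.depth_three hn c hc o
  have h2 : ∀ (n N : ℕ), n ≤ N → ∀ (c : List (Layer N)), entDepth c ≤ 3 →
      ∀ (o : Fin N) (ε : ℝ),
      ComputesParity n c o ε → ε ≤ 3084 * Real.exp (-((n : ℝ) ^ (1 / 3 : ℝ) / 640)) := by
    intro n N hn c hc o ε h
    have e1 := Vale.Agent.H29.QAC.two_eps_le c hc o ε h
    have e2 := (le_abs_self _).trans (h1 n N hn c hc o)
    linarith
  refine ⟨h1, h2, ?_⟩
  intro ε hε
  have ht : Filter.Tendsto (fun n : ℕ => 3084 * Real.exp (-((n : ℝ) ^ (1 / 3 : ℝ) / 640)))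
      Filter.atTop (nhds (3084 * 0)) := by
    refine Filter.Tendsto.const_mul _ (Real.tendsto_exp_neg_atTop_nhds_zero.comp ?_)
    refine Filter.Tendsto.atTop_div_const (by norm_num) ?_
    exact (tendsto_rpow_atTop (by norm_num)).comp tendsto_natCast_atTop_atTop
  rw [mul_zero] at ht
  obtain ⟨n₀, hn₀⟩ := Filter.eventually_atTop.mp (ht.eventually (gt_mem_nhds hε))
  refine ⟨n₀, fun n N h0 hn c hc o h => ?_⟩
  have e1 := h2 n N hn c hc o ε h
  have e2 := hn₀ n h0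
  exact absurd e1 (not_le.mpr e2)

end Vale.Agent.Results.P368.DepthThree
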